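import Vale.Agent.P144Z.U1.Energy

/-!
Symmetries and the DLR equations of the periodic Gibbs measures.
-/

namespace Vale.Agent.P144Z.U1

open Vale.Agent.P144 Finset

variable {V : Finset Site → ℝ}

theorem tE_shift (J lam : ℝ) (L : ℕ) [NeZero L] (s : TSite L → Bool) (t : TSite L) :
    tE J lam V L (fun u => s (u + t)) = tE J lam V L s := by
  unfold tE
  congr 1
  simp only [add_assoc]
  exact Equiv.sum_comp (Equiv.addRight t) fun u =>
    ∑ A ∈ shapes V, cf J lam V A * ∏ y ∈ A, sp (s (red L y + u))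

theorem gibbsT_shift (hV : IsPotential V) (J lam β : ℝ) (M : ℕ) (F : Config → ℝ) (t : Site) :
    gibbsT J lam V β M (fun σ => F fun x => σ (x + t)) = gibbsT J lam V β M F := by
  rw [gibbsT_eq hV, gibbsT_eq hV]
  congr 1
  let e : (TSite (M + 1) → Bool) ≃ (TSite (M + 1) → Bool) :=
    (Equiv.addRight (red (M + 1) t)).symm.arrowCongr (Equiv.refl Bool)
  rw [← e.sum_comp fun s => F (per (M + 1) s) * Real.exp (-β * tE J lam V (M + 1) s)]
  refine sum_congr rfl fun s _ => ?_
  have h : e s = fun u => s (u + red (M + 1) t) := rfl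
  rw [h, tE_shift]
  congr 2
  funext x
  simp only [per_apply, red_add]

theorem sp_not (b : Bool) : sp (!b) = -sp b := by cases b <;> simp [sp]

theorem abs_sp (b : Bool) : |sp b| = 1 := by cases b <;> simp [sp]

theorem tE_not (hV : IsPotential V) (J lam : ℝ) (L : ℕ) [NeZero L] (s : TSite L → Bool) :
    tE J lam V L (fun u => !s u) = tE J lam V L s := by
  unfold tE
  congr 1
  refine sum_congr rfl fun u _ => sum_congr rfl fun A hA => ?_
  simp only [sp_not]
  rw [prod_neg, (((mem_shapes hV).1 hA).2.even hV).neg_one_pow, one_mul]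

theorem gibbsT_not (hV : IsPotential V) (J lam β : ℝ) (M : ℕ) (F : Config → ℝ) :
    gibbsT J lam V β M (fun σ => F fun x => !σ x) = gibbsT J lam V β M F := by
  rw [gibbsT_eq hV, gibbsT_eq hV]
  congr 1
  let e : (TSite (M + 1) → Bool) ≃ (TSite (M + 1) → Bool) :=
    Function.Involutive.toPerm (fun s u => !s u) fun s => by simp
  rw [← e.sum_comp fun s => F (per (M + 1) s) * Real.exp (-β * tE J lam V (M + 1) s)]
  refine sum_congr rfl fun s _ => ?_
  have h : e s = fun u => !s u := rfl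
  rw [h, tE_not hV]
  rfl

section Cond

variable {ι : Type} [Fintype ι] [DecidableEq ι]

/-- The configuration that is `+1` on the image of `T`, `-1` on the rest of the image of `Λ`, and
`s` elsewhere. -/
def upd (r : Site → ι) (Λ : Finset Site) (s : ι → Bool) (T : Finset Site) : ι → Bool :=
  fun u => if u ∈ Λ.image r then decide (u ∈ T.image r) else s u

omit [Fintype ι] in
theorem upd_upd (r : Site → ι) (Λ : Finset Site) (s : ι → Bool) (T T' : Finset Site) :
    upd r Λ (upd r Λ s T) T' = upd r Λ s T' := by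
  funext u
  unfold upd
  split_ifs <;> rfl

omit [Fintype ι] in
theorem upd_self (r : Site → ι) (Λ : Finset Site) (s : ι → Bool) :
    upd r Λ s (Λ.filter fun x => s (r x) = true) = s := by
  funext u
  unfold upd
  split_ifs with h
  · obtain ⟨x, hx, rfl⟩ := mem_image.1 h
    cases hs : s (r x)
    · rw [decide_eq_false_iff_not]
      intro h'
      obtain ⟨y, hy, e⟩ := mem_image.1 h'
      have := (mem_filter.1 hy).2
      rw [e, hs] at this
      exact Bool.false_ne_true this
    · rw [decide_eq_true_iff]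
      exact mem_image.2 ⟨x, mem_filter.2 ⟨hx, hs⟩, rfl⟩
  · rfl

omit [Fintype ι] in
theorem filter_upd {r : Site → ι} {Λ : Finset Site} (hr : Set.InjOn r Λ) (s : ι → Bool)
    {T : Finset Site} (hT : T ⊆ Λ) : (Λ.filter fun x => upd r Λ s T (r x) = true) = T := by
  ext x
  rw [mem_filter]
  constructor
  · rintro ⟨hx, h⟩
    unfold upd at h
    rw [if_pos (mem_image_of_mem r hx), decide_eq_true_iff] at h
    obtain ⟨y, hy, e⟩ := mem_image.1 h
    rwa [← hr (hT hy) hx e]
  · intro hx
    refine ⟨hT hx, ?_⟩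
    unfold upd
    rw [if_pos (mem_image_of_mem r (hT hx)), decide_eq_true_iff]
    exact mem_image_of_mem r hx

theorem cond_sum {r : Site → ι} {Λ : Finset Site} (hr : Set.InjOn r Λ) (w G : (ι → Bool) → ℝ)
    (hw : ∀ s, 0 < w s) :
    ∑ s, (∑ T ∈ Λ.powerset, G (upd r Λ s T) * w (upd r Λ s T)) /
      (∑ T ∈ Λ.powerset, w (upd r Λ s T)) * w s = ∑ s, G s * w s := by
  set Z : (ι → Bool) → ℝ := fun s => ∑ T ∈ Λ.powerset, w (upd r Λ s T) with hZ
  have hZp : ∀ s, 0 < Z s := fun s => sum_pos (fun _ _ => hw _) ⟨∅, by simp⟩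
  have hZu : ∀ s T, Z (upd r Λ s T) = Z s := fun s T => by simp only [hZ, upd_upd]
  have e1 : ∀ s, (∑ T ∈ Λ.powerset, G (upd r Λ s T) * w (upd r Λ s T)) / Z s * w s =
      ∑ T ∈ Λ.powerset, G (upd r Λ s T) * w (upd r Λ s T) / Z s * w s := by
    intro s
    rw [sum_div, sum_mul]
  have e2 : ∀ s, G s * w s = ∑ T ∈ Λ.powerset, G s * w s / Z s * w (upd r Λ s T) := by
    intro s
    rw [← mul_sum, div_mul_cancel₀ _ (hZp s).ne']
  change ∑ s, _ / Z s * w s = _
  simp only [e1]
  rw [sum_congr rfl fun s _ => e2 s, ← sum_product', ← sum_product']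
  refine sum_nbij' (fun q => (upd r Λ q.1 q.2, Λ.filter fun x => q.1 (r x) = true))
    (fun q => (upd r Λ q.1 q.2, Λ.filter fun x => q.1 (r x) = true)) ?_ ?_ ?_ ?_ ?_
  · intro q _
    simp
  · intro q _
    simp
  · intro q hq
    have hq' := mem_powerset.1 (mem_product.1 hq).2
    simp only [upd_upd, upd_self, filter_upd hr _ hq']
  · intro q hq
    have hq' := mem_powerset.1 (mem_product.1 hq).2
    simp only [upd_upd, upd_self, filter_upd hr _ hq']
  · intro q _
    simp only [upd_upd, upd_self, hZu]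

end Cond

/-- All points of all shapes. -/
noncomputable def hull (V : Finset Site → ℝ) : Finset Site := (shapes V).biUnion id

/-- The first points of the terms that meet `Λ` lie here. -/
noncomputable def firsts (V : Finset Site → ℝ) (Λ : Finset Site) : Finset Site :=
  (Λ ×ˢ hull V).image fun q => q.1 - q.2

/-- The points seen by the terms that meet `Λ`. -/
noncomputable def seen (V : Finset Site → ℝ) (Λ : Finset Site) : Finset Site :=
  (hull V ×ˢ firsts V Λ).image fun q => q.1 + q.2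

theorem mem_hull {A : Finset Site} (hA : A ∈ shapes V) {y : Site} (hy : y ∈ A) : y ∈ hull V :=
  mem_biUnion.2 ⟨A, hA, hy⟩

theorem mem_seen {A Λ : Finset Site} (hA : A ∈ shapes V) {y x : Site} (hy : y ∈ A)
    (hx : x ∈ firsts V Λ) : y + x ∈ seen V Λ :=
  mem_image.2 ⟨(y, x), mem_product.2 ⟨mem_hull hA hy, hx⟩, rfl⟩

theorem meets_iff {A Λ : Finset Site} {x : Site} :
    (sh x A ∩ Λ).Nonempty ↔ ∃ y ∈ A, y + x ∈ Λ := by
  constructor
  · rintro ⟨z, hz⟩
    rw [mem_inter, mem_sh] at hz
    exact ⟨z - x, hz.1, by simpa using hz.2⟩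
  · rintro ⟨y, hy, h⟩
    exact ⟨y + x, mem_inter.2 ⟨mem_sh.2 (by simpa using hy), h⟩⟩

open Classical in
theorem energy_meets (hV : IsPotential V) (J lam : ℝ) (Λ : Finset Site) (σ : Config) :
    energy J lam V (fun A => (A ∩ Λ).Nonempty) σ = -∑ x ∈ firsts V Λ, ∑ A ∈ shapes V,
      if ∃ y ∈ A, y + x ∈ Λ then cf J lam V A * ∏ y ∈ A, sp (σ (y + x)) else 0 := by
  rw [energy_eq hV J lam _ (firsts V Λ)]
  · simp only [meets_iff]
  · intro x A hA h
    obtain ⟨y, hy, h⟩ := meets_iff.1 h
    exact mem_image.2 ⟨(y + x, y), mem_product.2 ⟨h, mem_hull hA hy⟩, by simp⟩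

theorem energy_meets_congr (hV : IsPotential V) (J lam : ℝ) (Λ : Finset Site) {σ τ : Config}
    (h : ∀ x ∈ seen V Λ, σ x = τ x) :
    energy J lam V (fun A => (A ∩ Λ).Nonempty) σ =
      energy J lam V (fun A => (A ∩ Λ).Nonempty) τ := by
  rw [energy_meets hV, energy_meets hV]
  congr 1
  refine sum_congr rfl fun x hx => sum_congr rfl fun A hA => ?_
  rw [prod_congr rfl fun y hy => by rw [h _ (mem_seen hA hy hx)]]

/-- The finite-volume expectation of a local function is a local function of the boundary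
condition. -/
theorem gibbs_dep (hV : IsPotential V) (J lam β : ℝ) (Λ : Finset Site) {B : Finset Site}
    {F : Config → ℝ} (hF : DependsOn F (B : Set Site)) :
    DependsOn (fun η => gibbs J lam V β (some η) Λ F) ((B ∪ seen V Λ : Finset Site) : Set Site) := by
  intro η η' h
  have he : ∀ T, ∀ x ∈ B ∪ seen V Λ, P144.ext Λ η T x = P144.ext Λ η' T x := by
    intro T x hx
    unfold P144.ext
    rw [h x (mem_coe.2 hx)]
  have h1 : ∀ T, F (P144.ext Λ η T) = F (P144.ext Λ η' T) := fun T =>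
    hF fun x hx => he T x (mem_union_left _ hx)
  have h2 : ∀ T, energy J lam V (fun A => (A ∩ Λ).Nonempty) (P144.ext Λ η T) =
      energy J lam V (fun A => (A ∩ Λ).Nonempty) (P144.ext Λ η' T) := fun T =>
    energy_meets_congr hV J lam Λ fun x hx => he T x (mem_union_right _ hx)
  simp only [gibbs, P144.expect, h1, h2]

open Classical in
/-- The part of the energy of the torus that does not see `Λ`. -/
noncomputable def rest (J lam : ℝ) (V : Finset Site → ℝ) (L : ℕ) [NeZero L] (Λ : Finset Site)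
    (s : TSite L → Bool) : ℝ :=
  -∑ u : TSite L, ∑ A ∈ shapes V, if ∃ y ∈ A, red L y + u ∈ Λ.image (red L) then 0 else
    cf J lam V A * ∏ y ∈ A, sp (s (red L y + u))

theorem rest_upd (J lam : ℝ) (L : ℕ) [NeZero L] (Λ : Finset Site) (s : TSite L → Bool)
    (T : Finset Site) : rest J lam V L Λ (upd (red L) Λ s T) = rest J lam V L Λ s := by
  unfold rest
  congr 1
  refine sum_congr rfl fun u _ => sum_congr rfl fun A _ => ?_
  split_ifs with h
  · rfl
  · congr 1
    refine prod_congr rfl fun y hy => ?_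
    unfold upd
    rw [if_neg fun h' => h ⟨y, hy, h'⟩]

theorem tE_split (hV : IsPotential V) (J lam : ℝ) (L : ℕ) [NeZero L] (Λ : Finset Site)
    (h1 : Set.InjOn (red L) (firsts V Λ)) (h2 : Set.InjOn (red L) (Λ ∪ seen V Λ : Finset Site))
    (s : TSite L → Bool) :
    tE J lam V L s = energy J lam V (fun A => (A ∩ Λ).Nonempty) (per L s) + rest J lam V L Λ s := by
  classical
  rw [energy_meets hV]
  unfold tE rest
  rw [← neg_add]
  congr 1
  have e : ∑ x ∈ firsts V Λ, ∑ A ∈ shapes V,
      (if ∃ y ∈ A, y + x ∈ Λ then cf J lam V A * ∏ y ∈ A, sp (per L s (y + x)) else 0) =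
      ∑ u : TSite L, ∑ A ∈ shapes V, if ∃ y ∈ A, red L y + u ∈ Λ.image (red L) then
        cf J lam V A * ∏ y ∈ A, sp (s (red L y + u)) else 0 := by
    rw [← sum_subset (subset_univ ((firsts V Λ).image (red L))), sum_image h1]
    · refine sum_congr rfl fun x hx => sum_congr rfl fun A hA => ?_
      simp only [per_apply, red_add]
      refine if_congr ⟨?_, ?_⟩ rfl rfl
      · rintro ⟨y, hy, h⟩
        exact ⟨y, hy, by rw [← red_add]; exact mem_image_of_mem _ h⟩
      · rintro ⟨y, hy, h⟩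
        obtain ⟨z, hz, e⟩ := mem_image.1 h
        rw [← red_add] at e
        have := h2 (mem_coe.2 (mem_union_left _ hz))
          (mem_coe.2 (mem_union_right _ (mem_seen hA hy hx))) e
        exact ⟨y, hy, this ▸ hz⟩
    · intro u _ hu
      refine sum_eq_zero fun A hA => if_neg ?_
      rintro ⟨y, hy, h⟩
      obtain ⟨z, hz, e⟩ := mem_image.1 h
      refine hu (mem_image.2 ⟨z - y, mem_image.2 ⟨(z, y), mem_product.2 ⟨hz, mem_hull hA hy⟩,
        rfl⟩, ?_⟩)
      rw [red_sub, e]
      simp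
  rw [e, ← sum_add_distrib]
  refine sum_congr rfl fun u _ => ?_
  rw [← sum_add_distrib]
  refine sum_congr rfl fun A _ => ?_
  split_ifs <;> simp

theorem per_upd {L : ℕ} {Λ Q : Finset Site} (hΛ : Λ ⊆ Q) (h : Set.InjOn (red L) Q)
    (s : TSite L → Bool) {T : Finset Site} (hT : T ⊆ Λ) {x : Site} (hx : x ∈ Q) :
    per L (upd (red L) Λ s T) x = P144.ext Λ (per L s) T x := by
  have key : ∀ {U : Finset Site}, U ⊆ Q → (red L x ∈ U.image (red L) ↔ x ∈ U) := by
    intro U hU
    refine ⟨fun h' => ?_, mem_image_of_mem _⟩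
    obtain ⟨y, hy, e⟩ := mem_image.1 h'
    rwa [← h (hU hy) hx e]
  rw [per_apply]
  unfold upd P144.ext
  simp only [key hΛ, key (hT.trans hΛ), per_apply]

theorem eventually_inj (Q : Finset Site) : ∃ M₀ : ℕ, ∀ L, M₀ ≤ L → Set.InjOn (red L) Q := by
  obtain ⟨N, hN⟩ : ∃ N : ℕ, ∀ x ∈ Q, |x.1| ≤ N ∧ |x.2| ≤ N := by
    refine ⟨Q.sup fun x => max x.1.natAbs x.2.natAbs, fun x hx => ?_⟩
    have := le_sup (f := fun x : Site => max x.1.natAbs x.2.natAbs) hx
    simp only [max_le_iff] at this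
    constructor
    · rw [← Int.natCast_natAbs]
      exact_mod_cast this.1
    · rw [← Int.natCast_natAbs]
      exact_mod_cast this.2
  refine ⟨2 * N + 1, fun L hL x hx y hy e => red_inj (L := L) ?_ ?_ e⟩
  · have h1 := abs_le.1 (hN x hx).1
    have h2 := abs_le.1 (hN y hy).1
    rw [abs_lt]
    omega
  · have h1 := abs_le.1 (hN x hx).2
    have h2 := abs_le.1 (hN y hy).2
    rw [abs_lt]
    omega

/-- The DLR equations for the periodic measures of large period. -/
theorem gibbsT_dlr (hV : IsPotential V) (J lam β : ℝ) (Λ : Finset Site) {B : Finset Site}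
    {F : Config → ℝ} (hF : DependsOn F (B : Set Site)) :
    ∃ M₀ : ℕ, ∀ M, M₀ ≤ M →
      gibbsT J lam V β M (fun η => gibbs J lam V β (some η) Λ F) = gibbsT J lam V β M F := by
  obtain ⟨M₀, hM⟩ := eventually_inj (firsts V Λ ∪ (B ∪ (Λ ∪ seen V Λ)))
  refine ⟨M₀, fun M h => ?_⟩
  have hi := hM (M + 1) (by omega)
  have hΛ : Λ ⊆ firsts V Λ ∪ (B ∪ (Λ ∪ seen V Λ)) := fun x hx => by simp [hx]
  rw [gibbsT_eq hV, gibbsT_eq hV]
  congr 1
  rw [← cond_sum (r := red (M + 1)) (Λ := Λ) (hi.mono (coe_subset.2 hΛ))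
    (fun s => Real.exp (-β * tE J lam V (M + 1) s)) (fun s => F (per (M + 1) s))
    fun _ => Real.exp_pos _]
  refine sum_congr rfl fun s _ => ?_
  congr 1
  have h1 : ∀ T ∈ Λ.powerset, F (per (M + 1) (upd (red (M + 1)) Λ s T)) =
      F (P144.ext Λ (per (M + 1) s) T) := fun T hT =>
    hF fun x hx => per_upd hΛ hi s (mem_powerset.1 hT) (by simp [mem_coe.1 hx])
  have h2 : ∀ T ∈ Λ.powerset, Real.exp (-β * tE J lam V (M + 1) (upd (red (M + 1)) Λ s T)) =
      Real.exp (-β * energy J lam V (fun A => (A ∩ Λ).Nonempty)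
        (P144.ext Λ (per (M + 1) s) T)) * Real.exp (-β * rest J lam V (M + 1) Λ s) := by
    intro T hT
    rw [tE_split hV J lam (M + 1) Λ (hi.mono fun x hx => by simp [mem_coe.1 hx])
      (hi.mono (coe_subset.2 fun x hx => by simp only [mem_union] at hx ⊢; tauto)), rest_upd,
      energy_meets_congr hV J lam Λ fun x hx =>
        per_upd hΛ hi s (mem_powerset.1 hT) (by simp [hx]), mul_add, Real.exp_add]
  rw [sum_congr rfl fun T hT => by rw [h1 T hT, h2 T hT, ← mul_assoc], sum_congr rfl h2,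
    ← sum_mul, ← sum_mul, mul_div_mul_right _ _ (Real.exp_pos _).ne']
  rfl

end Vale.Agent.P144Z.U1
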