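import Vale.Agent.P144Z.Stmt

/-!
The energy as a sum over first points and shapes.
-/

namespace Vale.Agent.P144Z.U1

open Vale.Agent.P144 Finset

/-- The sites of the discrete torus of side `L`. -/
abbrev TSite (L : ℕ) := ZMod L × ZMod L

/-- Reduction of a site modulo `L ℤ²`. -/
def red (L : ℕ) (x : Site) : TSite L := ((x.1 : ZMod L), (x.2 : ZMod L))

theorem per_apply (L : ℕ) (s : TSite L → Bool) (x : Site) : per L s x = s (red L x) := rfl

/-- `x` is the lexicographically first point of `A`. -/
def First (x : Site) (A : Finset Site) : Prop :=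
  x ∈ A ∧ ∀ y ∈ A, x.1 < y.1 ∨ (x.1 = y.1 ∧ x.2 ≤ y.2)

open Classical in
/-- The coefficient of the term `A` in the energy. -/
noncomputable def cf (J lam : ℝ) (V : Finset Site → ℝ) (A : Finset Site) : ℝ :=
  (if IsEdge A then J else 0) + lam * V A

/-- The translate of a finite set. -/
def sh (t : Site) (A : Finset Site) : Finset Site := A.image fun x => x + t

theorem mem_sh {t : Site} {A : Finset Site} {x : Site} : x ∈ sh t A ↔ x - t ∈ A := by
  unfold sh
  rw [mem_image]
  constructor
  · rintro ⟨y, hy, rfl⟩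
    simpa using hy
  · intro h
    exact ⟨x - t, h, by simp⟩

theorem sh_sh (t u : Site) (A : Finset Site) : sh t (sh u A) = sh (u + t) A := by
  ext x
  simp only [mem_sh]
  rw [show x - t - u = x - (u + t) by abel]

theorem sh_zero (A : Finset Site) : sh 0 A = A := by
  ext x
  simp [mem_sh]

theorem prod_sh (t : Site) (A : Finset Site) (g : Site → ℝ) :
    ∏ x ∈ sh t A, g x = ∏ y ∈ A, g (y + t) := by
  unfold sh
  rw [prod_image]
  intro a _ b _ h
  simpa using h

theorem First.unique {x y : Site} {A : Finset Site} (hx : First x A) (hy : First y A) : x = y := by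
  have h1 := hx.2 y hy.1
  have h2 := hy.2 x hx.1
  ext <;> omega

theorem exists_first {A : Finset Site} (hA : A.Nonempty) : ∃ x, First x A := by
  obtain ⟨x, hx, hmin⟩ := A.exists_min_image (fun x => toLex x) hA
  refine ⟨x, hx, fun y hy => ?_⟩
  have := hmin y hy
  rw [Prod.Lex.toLex_le_toLex] at this
  exact this

theorem first_sh {x t : Site} {A : Finset Site} : First (x + t) (sh t A) ↔ First x A := by
  unfold First
  rw [mem_sh, add_sub_cancel_right]
  refine and_congr_right fun _ => ⟨fun h y hy => ?_, fun h y hy => ?_⟩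
  · have := h (y + t) (by rw [mem_sh, add_sub_cancel_right]; exact hy)
    simp only [Prod.fst_add, Prod.snd_add] at this
    omega
  · have := h (y - t) (mem_sh.1 hy)
    simp only [Prod.fst_add, Prod.snd_add, Prod.fst_sub, Prod.snd_sub] at this ⊢
    omega

theorem isEdge_sh_of {t : Site} {A : Finset Site} (h : IsEdge A) : IsEdge (sh t A) := by
  obtain ⟨u, v, huv, rfl⟩ := h
  refine ⟨u + t, v + t, ?_, ?_⟩
  · rw [← huv]
    simp [dsq]
  · simp [sh]

theorem isEdge_sh {t : Site} {A : Finset Site} : IsEdge (sh t A) ↔ IsEdge A := by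
  refine ⟨fun h => ?_, isEdge_sh_of⟩
  have := isEdge_sh_of (t := -t) h
  rwa [sh_sh, add_neg_cancel, sh_zero] at this

variable {V : Finset Site → ℝ}

theorem cf_sh (hV : IsPotential V) (J lam : ℝ) (t : Site) (A : Finset Site) :
    cf J lam V (sh t A) = cf J lam V A := by
  unfold cf
  rw [isEdge_sh]
  congr 2
  exact hV.translate t A

/-- The sets that can carry a term of the energy. -/
def Term (V : Finset Site → ℝ) (A : Finset Site) : Prop := IsEdge A ∨ V A ≠ 0

theorem term_of_cf {J lam : ℝ} {A : Finset Site} (h : cf J lam V A ≠ 0) : Term V A := by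
  by_contra hn
  unfold Term at hn
  push Not at hn
  apply h
  unfold cf
  rw [if_neg hn.1, hn.2]
  simp

theorem term_sh (hV : IsPotential V) {t : Site} {A : Finset Site} :
    Term V (sh t A) ↔ Term V A := by
  unfold Term
  rw [isEdge_sh, show V (sh t A) = V A from hV.translate t A]

theorem Term.nonempty (hV : IsPotential V) {A : Finset Site} (h : Term V A) : A.Nonempty := by
  rcases h with ⟨u, v, _, rfl⟩ | h
  · simp
  · rw [nonempty_iff_ne_empty]
    rintro rfl
    exact h hV.empty

theorem Term.even (hV : IsPotential V) {A : Finset Site} (h : Term V A) : Even A.card := by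
  rcases h with ⟨u, v, huv, rfl⟩ | h
  · have : u ≠ v := by
      rintro rfl
      simp [dsq] at huv
    rw [card_pair this]
    exact even_two
  · exact hV.even A h

/-- A bound on the coordinate differences inside a term. -/
theorem exists_range (hV : IsPotential V) :
    ∃ R : ℕ, ∀ A, Term V A → ∀ x ∈ A, ∀ y ∈ A, |x.1 - y.1| ≤ R ∧ |x.2 - y.2| ≤ R := by
  obtain ⟨R, hR⟩ := hV.range
  refine ⟨R.toNat + 1, fun A hA x hx y hy => ?_⟩
  have key : dsq x y ≤ R.toNat + 1 := by
    rcases hA with ⟨u, v, huv, rfl⟩ | h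
    · have h0 : (0 : ℤ) ≤ R.toNat := Int.natCast_nonneg _
      simp only [mem_insert, mem_singleton] at hx hy
      unfold dsq at huv ⊢
      rcases hx with rfl | rfl <;> rcases hy with rfl | rfl <;> nlinarith
    · have := hR A h x hx y hy
      have h1 : R ≤ R.toNat := Int.self_le_toNat R
      omega
  unfold dsq at key
  have h1 := sq_nonneg (x.1 - y.1)
  have h2 := sq_nonneg (x.2 - y.2)
  push_cast
  constructor
  · have : |x.1 - y.1| ≤ (x.1 - y.1) ^ 2 := by
      rw [← sq_abs]
      rcases (abs_nonneg (x.1 - y.1)).eq_or_lt with h | h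
      · rw [← h]; simp
      · nlinarith
    omega
  · have : |x.2 - y.2| ≤ (x.2 - y.2) ^ 2 := by
      rw [← sq_abs]
      rcases (abs_nonneg (x.2 - y.2)).eq_or_lt with h | h
      · rw [← h]; simp
      · nlinarith
    omega

theorem finite_shapes (hV : IsPotential V) : {A | First 0 A ∧ Term V A}.Finite := by
  obtain ⟨R, hR⟩ := exists_range hV
  refine ((Icc (-(R : ℤ)) R ×ˢ Icc (-(R : ℤ)) R).powerset.finite_toSet).subset ?_
  rintro A ⟨h0, hA⟩
  simp only [coe_powerset, Set.mem_preimage, Set.mem_powerset_iff, coe_subset]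
  intro x hx
  have := hR A hA x hx 0 h0.1
  simp only [Prod.fst_zero, Prod.snd_zero, sub_zero, abs_le] at this
  simp only [mem_product, mem_Icc]
  exact this

open Classical in
/-- The terms whose first point is the origin. -/
noncomputable def shapes (V : Finset Site → ℝ) : Finset (Finset Site) :=
  if h : {A | First 0 A ∧ Term V A}.Finite then h.toFinset else ∅

theorem mem_shapes (hV : IsPotential V) {A : Finset Site} :
    A ∈ shapes V ↔ First 0 A ∧ Term V A := by
  unfold shapes
  rw [dif_pos (finite_shapes hV)]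
  simp

/-- A sum over all terms as a finite sum over the first point and the shape. -/
theorem finsum_eq (hV : IsPotential V) (g : Finset Site → ℝ) (hg : ∀ A, g A ≠ 0 → Term V A)
    (W : Finset Site) (hW : ∀ x, ∀ A ∈ shapes V, g (sh x A) ≠ 0 → x ∈ W) :
    ∑ᶠ A, g A = ∑ x ∈ W, ∑ A ∈ shapes V, g (sh x A) := by
  classical
  rw [finsum_eq_sum_of_support_subset (s := (W ×ˢ shapes V).image fun q => sh q.1 q.2)]
  · rw [sum_image, sum_product]
    rintro ⟨x, A⟩ h1 ⟨y, B⟩ h2 h
    simp only [coe_product, Set.mem_prod, mem_coe] at h1 h2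
    have hA := ((mem_shapes hV).1 h1.2).1
    have hB := ((mem_shapes hV).1 h2.2).1
    have f1 : First (0 + x) (sh x A) := first_sh.2 hA
    have f2 : First (0 + y) (sh y B) := first_sh.2 hB
    simp only at h
    rw [h] at f1
    have hxy : x = y := by simpa using f1.unique f2
    subst hxy
    have : sh (-x) (sh x A) = sh (-x) (sh x B) := by rw [h]
    rw [sh_sh, sh_sh, add_neg_cancel, sh_zero, sh_zero] at this
    rw [this]
  · intro A hA
    have hT : Term V A := hg A hA
    obtain ⟨x, hx⟩ := exists_first (hT.nonempty hV)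
    have e : sh x (sh (-x) A) = A := by rw [sh_sh, neg_add_cancel, sh_zero]
    have hs : sh (-x) A ∈ shapes V := by
      rw [mem_shapes hV, term_sh hV]
      refine ⟨?_, hT⟩
      have := (first_sh (t := -x)).2 hx
      rwa [add_neg_cancel] at this
    simp only [coe_image, coe_product, Set.mem_image, Set.mem_prod, mem_coe]
    exact ⟨(x, sh (-x) A), ⟨hW x _ hs (by rw [e]; exact hA), hs⟩, e⟩

open Classical in
/-- The energy as a finite sum over the first point and the shape of the term. -/
theorem energy_eq (hV : IsPotential V) (J lam : ℝ) (P : Finset Site → Prop) (W : Finset Site)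
    (hW : ∀ x, ∀ A ∈ shapes V, P (sh x A) → x ∈ W) (σ : Config) :
    energy J lam V P σ = -∑ x ∈ W, ∑ A ∈ shapes V,
      if P (sh x A) then cf J lam V A * ∏ y ∈ A, sp (σ (y + x)) else 0 := by
  unfold energy
  congr 1
  have e1 : ∀ A : Finset Site, (∑ᶠ (_ : P A), ((if IsEdge A then J else 0) + lam * V A) *
      ∏ x ∈ A, sp (σ x)) = if P A then cf J lam V A * ∏ x ∈ A, sp (σ x) else 0 := by
    intro A
    rw [finsum_eq_if]
    rfl
  simp only [e1]
  rw [finsum_eq hV _ _ W]
  · simp only [cf_sh hV, prod_sh]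
  · intro x A hA h
    refine hW x A hA ?_
    by_contra hn
    exact h (if_neg hn)
  · intro A h
    simp only [ne_eq, ite_eq_right_iff, Classical.not_imp] at h
    exact term_of_cf (left_ne_zero_of_mul h.2)

theorem card_sh (t : Site) (A : Finset Site) : (sh t A).card = A.card :=
  card_image_of_injective _ (add_left_injective t)

open Classical in
theorem share_eq (hV : IsPotential V) (J lam : ℝ) (σ : Config) (x : Site) :
    (∑ᶠ (A : Finset Site) (_ : x ∈ A),
      ((if IsEdge A then J else 0) + lam * V A) / A.card * ∏ y ∈ A, sp (σ y)) =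
    ∑ A ∈ shapes V, ∑ y ∈ A, cf J lam V A / A.card * ∏ w ∈ A, sp (σ (w + (x - y))) := by
  have e1 : ∀ A : Finset Site, (∑ᶠ (_ : x ∈ A), ((if IsEdge A then J else 0) + lam * V A) / A.card *
      ∏ x ∈ A, sp (σ x)) = if x ∈ A then cf J lam V A / A.card * ∏ x ∈ A, sp (σ x) else 0 := by
    intro A
    rw [finsum_eq_if]
    rfl
  simp only [e1]
  rw [finsum_eq hV _ _ (((shapes V).biUnion id).image fun y => x - y), sum_comm]
  · refine sum_congr rfl fun A hA => ?_
    rw [sum_image fun a _ b _ h => sub_right_injective h]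
    simp only [mem_sh, sub_sub_cancel, cf_sh hV, card_sh, prod_sh]
    rw [← sum_filter]
    refine sum_congr ?_ fun _ _ => rfl
    ext y
    simp only [mem_filter, mem_biUnion, id_eq]
    exact ⟨fun h => h.2, fun h => ⟨⟨A, hA, h⟩, h⟩⟩
  · intro z A hA h
    simp only [ne_eq, ite_eq_right_iff, Classical.not_imp] at h
    exact mem_image.2 ⟨x - z, mem_biUnion.2 ⟨A, hA, mem_sh.1 h.1⟩, sub_sub_cancel _ _⟩
  · intro A h
    simp only [ne_eq, ite_eq_right_iff, Classical.not_imp] at h
    exact term_of_cf (div_ne_zero_iff.1 (left_ne_zero_of_mul h.2)).1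

theorem red_add (L : ℕ) (x y : Site) : red L (x + y) = red L x + red L y := by
  simp [red]

theorem red_sub (L : ℕ) (x y : Site) : red L (x - y) = red L x - red L y := by
  simp [red]

theorem red_zero (L : ℕ) : red L 0 = 0 := by
  simp [red]

/-- The fundamental square. -/
noncomputable def sq0 (L : ℕ) : Finset Site := Ico (0 : ℤ) L ×ˢ Ico (0 : ℤ) L

theorem mem_sq0 {L : ℕ} {x : Site} :
    x ∈ sq0 L ↔ 0 ≤ x.1 ∧ x.1 < L ∧ 0 ≤ x.2 ∧ x.2 < L := by
  simp only [sq0, mem_product, mem_Ico]
  tauto

theorem red_eq_iff {L : ℕ} {x y : Site} :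
    red L x = red L y ↔ (L : ℤ) ∣ y.1 - x.1 ∧ (L : ℤ) ∣ y.2 - x.2 := by
  unfold red
  rw [Prod.mk.injEq, ZMod.intCast_eq_intCast_iff_dvd_sub, ZMod.intCast_eq_intCast_iff_dvd_sub]

theorem red_inj {L : ℕ} {x y : Site} (h1 : |x.1 - y.1| < L) (h2 : |x.2 - y.2| < L)
    (h : red L x = red L y) : x = y := by
  obtain ⟨d1, d2⟩ := red_eq_iff.1 h
  have e1 := Int.eq_zero_of_abs_lt_dvd d1 (by rwa [abs_sub_comm])
  have e2 := Int.eq_zero_of_abs_lt_dvd d2 (by rwa [abs_sub_comm])
  ext <;> omega

/-- The site of the fundamental square above a site of the torus. -/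
def lift {L : ℕ} (u : TSite L) : Site := ((u.1.val : ℤ), (u.2.val : ℤ))

theorem red_lift {L : ℕ} [NeZero L] (u : TSite L) : red L (lift u) = u := by
  simp [red, lift]

theorem lift_mem {L : ℕ} [NeZero L] (u : TSite L) : lift u ∈ sq0 L := by
  rw [mem_sq0]
  have h1 := ZMod.val_lt u.1
  have h2 := ZMod.val_lt u.2
  simp only [lift]
  omega

theorem sum_sq0 {L : ℕ} [NeZero L] (g : TSite L → ℝ) :
    ∑ x ∈ sq0 L, g (red L x) = ∑ u, g u := by
  refine sum_nbij' (red L) lift (fun _ _ => mem_univ _) (fun u _ => lift_mem u) ?_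
    (fun u _ => red_lift u) (fun _ _ => rfl)
  intro x hx
  have h1 := mem_sq0.1 hx
  have h2 := mem_sq0.1 (lift_mem (red L x))
  refine red_inj (L := L) ?_ ?_ (red_lift _)
  · rw [abs_lt]; omega
  · rw [abs_lt]; omega

/-- The energy of a configuration of the torus. -/
noncomputable def tE (J lam : ℝ) (V : Finset Site → ℝ) (L : ℕ) [NeZero L]
    (s : TSite L → Bool) : ℝ :=
  -∑ u : TSite L, ∑ A ∈ shapes V, cf J lam V A * ∏ y ∈ A, sp (s (red L y + u))

theorem energyT_eq (hV : IsPotential V) (J lam : ℝ) (L : ℕ) [NeZero L] (s : TSite L → Bool) :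
    energyT J lam V L (per L s) = tE J lam V L s := by
  classical
  unfold energyT tE
  congr 1
  simp only [share_eq hV, per_apply, red_add, red_sub]
  have := sum_sq0 (L := L) fun u => ∑ A ∈ shapes V, ∑ y ∈ A,
    cf J lam V A / A.card * ∏ w ∈ A, sp (s (red L w + (u - red L y)))
  unfold sq0 at this
  rw [this, sum_comm, sum_comm (s := univ)]
  refine sum_congr rfl fun A hA => ?_
  rw [sum_comm]
  have e : ∀ y ∈ A, ∑ u : TSite L, cf J lam V A / A.card *
      ∏ w ∈ A, sp (s (red L w + (u - red L y))) =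
      ∑ u : TSite L, cf J lam V A / A.card * ∏ w ∈ A, sp (s (red L w + u)) := fun y _ =>
    (Equiv.subRight (red L y)).sum_comp fun u => cf J lam V A / A.card *
      ∏ w ∈ A, sp (s (red L w + u))
  rw [sum_congr rfl e, sum_const, nsmul_eq_mul, mul_sum]
  refine sum_congr rfl fun u _ => ?_
  have hc : (A.card : ℝ) ≠ 0 := by
    have := (((mem_shapes hV).1 hA).2.nonempty hV).card_pos
    positivity
  field_simp

theorem gibbsT_eq (hV : IsPotential V) (J lam β : ℝ) (M : ℕ) (F : Config → ℝ) :
    gibbsT J lam V β M F =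
      (∑ s : TSite (M + 1) → Bool, F (per (M + 1) s) * Real.exp (-β * tE J lam V (M + 1) s))
        / ∑ s : TSite (M + 1) → Bool, Real.exp (-β * tE J lam V (M + 1) s) := by
  unfold gibbsT
  simp only [energyT_eq hV]

end Vale.Agent.P144Z.U1
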