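import Vale.Agent.P144Z.U1.Dlr
import Mathlib.MeasureTheory.Measure.Prokhorov

/-!
The limit of the periodic Gibbs measures.
-/

namespace Vale.Agent.P144Z.U1

open Vale.Agent.P144 Finset Filter Topology MeasureTheory

variable {V : Finset Site → ℝ}

theorem continuous_of_dep {B : Finset Site} {F : Config → ℝ} (hF : DependsOn F (B : Set Site)) :
    Continuous F := by
  classical
  have e : F = (fun s : B → Bool => F fun x => if h : x ∈ B then s ⟨x, h⟩ else true) ∘
      fun (σ : Config) (x : B) => σ x := by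
    funext σ
    refine hF fun x hx => ?_
    simp [mem_coe.1 hx]
  rw [e]
  exact continuous_of_discreteTopology.comp (continuous_pi fun x => continuous_apply _)

theorem integrable_of_cont {F : Config → ℝ} (hF : Continuous F) (μ : Measure Config)
    [IsFiniteMeasure μ] : Integrable F μ :=
  (BoundedContinuousFunction.mkOfCompact ⟨F, hF⟩).integrable μ

theorem dep_prod (A : Finset Site) :
    DependsOn (fun σ : Config => ∏ x ∈ A, sp (σ x)) (A : Set Site) := fun _ _ h =>
  prod_congr rfl fun x hx => by rw [h x (mem_coe.2 hx)]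

/-- A local function is a combination of products of spins. -/
theorem expand {B : Finset Site} {F : Config → ℝ} (hF : DependsOn F (B : Set Site)) :
    ∃ c : Finset Site → ℝ, ∀ σ, F σ = ∑ A ∈ B.powerset, c A * ∏ x ∈ A, sp (σ x) := by
  classical
  refine ⟨fun A => ∑ T ∈ B.powerset, F (P144.ext B (fun _ => true) T) * (1 / 2) ^ B.card *
    ∏ x ∈ A, sp (decide (x ∈ T)), fun σ => ?_⟩
  simp only [sum_mul]
  rw [sum_comm]
  have e : ∀ T ∈ B.powerset, ∑ A ∈ B.powerset, (F (P144.ext B (fun _ => true) T) *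
      (1 / 2) ^ B.card * ∏ x ∈ A, sp (decide (x ∈ T))) * ∏ x ∈ A, sp (σ x) =
      F (P144.ext B (fun _ => true) T) *
        ∏ x ∈ B, (1 / 2 * (1 + sp (decide (x ∈ T)) * sp (σ x))) := by
    intro T _
    rw [prod_mul_distrib, prod_const, prod_one_add, mul_sum, mul_sum]
    refine sum_congr rfl fun A _ => ?_
    rw [prod_mul_distrib]
    ring
  rw [sum_congr rfl e, sum_eq_single (B.filter fun x => σ x = true)]
  · rw [prod_eq_one, mul_one]
    · refine hF fun x hx => ?_
      simp [P144.ext, mem_coe.1 hx]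
    · intro x hx
      cases h : σ x <;> simp [sp, h, hx] <;> norm_num
  · intro T hT hne
    have : ∃ x ∈ B, decide (x ∈ T) ≠ σ x := by
      by_contra hn
      push Not at hn
      apply hne
      ext x
      rw [mem_filter]
      constructor
      · intro hx
        have hB := mem_powerset.1 hT hx
        exact ⟨hB, by rw [← hn x hB]; simpa using hx⟩
      · rintro ⟨hB, h⟩
        have := hn x hB
        rw [h] at this
        simpa using this
    obtain ⟨x, hx, h⟩ := this
    rw [prod_eq_zero hx, mul_zero]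
    revert h
    cases decide (x ∈ T) <;> cases σ x <;> simp [sp]
  · intro h
    exact absurd (mem_powerset.2 (filter_subset _ _)) h

/-- The periodic Gibbs measure on all configurations. -/
noncomputable def tm (J lam : ℝ) (V : Finset Site → ℝ) (β : ℝ) (M : ℕ) : Measure Config :=
  ∑ s : TSite (M + 1) → Bool,
    ENNReal.ofReal (Real.exp (-β * energyT J lam V (M + 1) (per (M + 1) s)) /
      ∑ t : TSite (M + 1) → Bool, Real.exp (-β * energyT J lam V (M + 1) (per (M + 1) t))) •
      Measure.dirac (per (M + 1) s)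

theorem Z_pos (J lam : ℝ) (V : Finset Site → ℝ) (β : ℝ) (M : ℕ) :
    0 < ∑ t : TSite (M + 1) → Bool, Real.exp (-β * energyT J lam V (M + 1) (per (M + 1) t)) :=
  sum_pos (fun _ _ => Real.exp_pos _) ⟨fun _ => true, mem_univ _⟩

theorem integral_tm (J lam : ℝ) (V : Finset Site → ℝ) (β : ℝ) (M : ℕ) (F : Config → ℝ) :
    ∫ σ, F σ ∂(tm J lam V β M) = gibbsT J lam V β M F := by
  have hZ := Z_pos J lam V β M
  unfold tm gibbsT
  rw [integral_finsetSum_measure]
  · rw [sum_div]
    refine sum_congr rfl fun s _ => ?_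
    rw [integral_smul_measure, integral_dirac,
      ENNReal.toReal_ofReal (div_pos (Real.exp_pos _) hZ).le, smul_eq_mul]
    ring
  · intro s _
    refine Integrable.smul_measure ?_ ENNReal.ofReal_ne_top
    exact integrable_dirac (by simp)

instance (J lam : ℝ) (V : Finset Site → ℝ) (β : ℝ) (M : ℕ) :
    IsProbabilityMeasure (tm J lam V β M) := by
  have hZ := Z_pos J lam V β M
  constructor
  unfold tm
  simp only [Measure.coe_finsetSum, Finset.sum_apply, Measure.smul_apply, measure_univ,
    smul_eq_mul, mul_one]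
  rw [← ENNReal.ofReal_sum_of_nonneg fun s _ => (div_pos (Real.exp_pos _) hZ).le, ← sum_div,
    div_self hZ.ne', ENNReal.ofReal_one]

theorem integral_expand {B : Finset Site} {F : Config → ℝ} {c : Finset Site → ℝ}
    (h : ∀ σ, F σ = ∑ A ∈ B.powerset, c A * ∏ x ∈ A, sp (σ x)) (μ : Measure Config)
    [IsFiniteMeasure μ] :
    ∫ σ, F σ ∂μ = ∑ A ∈ B.powerset, c A * ∫ σ, ∏ x ∈ A, sp (σ x) ∂μ := by
  simp only [h]
  rw [integral_finsetSum _ fun A _ =>
    (integrable_of_cont (continuous_of_dep (dep_prod A)) μ).const_mul _]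
  simp only [integral_const_mul]

/-- Convergence of the spin correlations gives convergence of all local functions. -/
theorem tendsto_local {ι : Type} {l : Filter ι} {ν : ι → Measure Config} {μ : Measure Config}
    [∀ i, IsFiniteMeasure (ν i)] [IsFiniteMeasure μ]
    (h : ∀ A : Finset Site, Tendsto (fun i => ∫ σ, ∏ x ∈ A, sp (σ x) ∂(ν i)) l
      (𝓝 (∫ σ, ∏ x ∈ A, sp (σ x) ∂μ)))
    {B : Finset Site} {F : Config → ℝ} (hF : DependsOn F (B : Set Site)) :
    Tendsto (fun i => ∫ σ, F σ ∂(ν i)) l (𝓝 (∫ σ, F σ ∂μ)) := by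
  obtain ⟨c, hc⟩ := expand hF
  simp only [integral_expand hc]
  exact tendsto_finsetSum _ fun A _ => (h A).const_mul _

/-- The energy density at the `k`-th energy point. -/
noncomputable def en (a : ℝ) (p : Pts) (k : Fin p.m) (σ : Config) : ℝ :=
  sp (σ (fl a (p.y k))) * sp (σ (fl a (p.y k) + dir (p.j k)))

/-- The product of the rescaled spins and of some rescaled energies. -/
noncomputable def mom (a : ℝ) (p : Pts) (t : Finset (Fin p.m)) (σ : Config) : ℝ :=
  (∏ i, a ^ (-(1 / 8) : ℝ) * sp (σ (fl a (p.x i)))) * ∏ k ∈ t, a⁻¹ * en a p k σ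

/-- The sites that enter a correlation. -/
noncomputable def supp (a : ℝ) (p : Pts) : Finset Site :=
  (univ.image fun i => fl a (p.x i)) ∪ ((univ.image fun k => fl a (p.y k)) ∪
    univ.image fun k => fl a (p.y k) + dir (p.j k))

theorem dep_en (a : ℝ) (p : Pts) (k : Fin p.m) : DependsOn (en a p k) (supp a p : Set Site) := by
  intro σ τ h
  unfold en
  rw [h (fl a (p.y k)) (by simp [supp]), h (fl a (p.y k) + dir (p.j k)) (by simp [supp])]

theorem dep_mom (a : ℝ) (p : Pts) (t : Finset (Fin p.m)) :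
    DependsOn (mom a p t) (supp a p : Set Site) := by
  intro σ τ h
  unfold mom
  congr 1
  · exact prod_congr rfl fun i _ => by rw [h (fl a (p.x i)) (by simp [supp])]
  · exact prod_congr rfl fun k _ => by rw [dep_en a p k h]

theorem corr_expand (a : ℝ) (p : Pts) (μ : Measure Config) [IsFiniteMeasure μ] :
    corr a (fun F => ∫ σ, F σ ∂μ) p = ∑ t ∈ (univ : Finset (Fin p.m)).powerset,
      (∏ k ∈ univ \ t, -(a⁻¹ * ∫ σ, en a p k σ ∂μ)) * ∫ σ, mom a p t σ ∂μ := by
  simp only [← integral_const_mul _ (mom a p _)]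
  rw [← integral_finsetSum _ fun t _ =>
    (integrable_of_cont (continuous_of_dep (dep_mom a p t)) μ).const_mul _]
  unfold corr
  refine integral_congr_ae (Eventually.of_forall fun σ => ?_)
  have e : ∏ k, a⁻¹ * (en a p k σ - ∫ τ, en a p k τ ∂μ) =
      ∏ k, (a⁻¹ * en a p k σ + -(a⁻¹ * ∫ τ, en a p k τ ∂μ)) :=
    prod_congr rfl fun k _ => by ring
  change _ * ∏ k, a⁻¹ * (en a p k σ - ∫ τ, en a p k τ ∂μ) = _
  rw [e, prod_add, mul_sum]
  refine sum_congr rfl fun t _ => ?_
  unfold mom
  ring

theorem tendsto_corr {ι : Type} {l : Filter ι} {ν : ι → Measure Config} {μ : Measure Config}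
    [∀ i, IsFiniteMeasure (ν i)] [IsFiniteMeasure μ]
    (h : ∀ A : Finset Site, Tendsto (fun i => ∫ σ, ∏ x ∈ A, sp (σ x) ∂(ν i)) l
      (𝓝 (∫ σ, ∏ x ∈ A, sp (σ x) ∂μ))) (a : ℝ) (p : Pts) :
    Tendsto (fun i => corr a (fun F => ∫ σ, F σ ∂(ν i)) p) l
      (𝓝 (corr a (fun F => ∫ σ, F σ ∂μ) p)) := by
  simp only [corr_expand]
  refine tendsto_finsetSum _ fun t _ => Tendsto.mul ?_ (tendsto_local h (dep_mom a p t))
  exact tendsto_finsetProd _ fun k _ => ((tendsto_local h (dep_en a p k)).const_mul _).neg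

/-- Correlations only depend on the spin correlations. -/
theorem corr_congr {ν μ : Measure Config} [IsFiniteMeasure ν] [IsFiniteMeasure μ]
    (h : ∀ A : Finset Site, ∫ σ, ∏ x ∈ A, sp (σ x) ∂ν = ∫ σ, ∏ x ∈ A, sp (σ x) ∂μ) (a : ℝ)
    (p : Pts) : corr a (fun F => ∫ σ, F σ ∂ν) p = corr a (fun F => ∫ σ, F σ ∂μ) p :=
  tendsto_nhds_unique tendsto_const_nhds (tendsto_corr (l := (atTop : Filter ℕ))
    (ν := fun _ => ν) (fun A => by rw [h A]; exact tendsto_const_nhds) a p)

/-- A cluster point of the periodic measures along an ultrafilter is a translation-invariant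
Gibbs state. -/
theorem exists_ultra (hV : IsPotential V) (J lam β : ℝ) (U : Ultrafilter ℕ)
    (hU : (U : Filter ℕ) ≤ atTop) :
    ∃ μ : Measure Config, IsProbabilityMeasure μ ∧
      (∀ t : Site, μ.map (fun σ x => σ (x + t)) = μ) ∧
      (∀ (Λ B : Finset Site) (F : Config → ℝ), DependsOn F (B : Set Site) →
        ∫ η, gibbs J lam V β (some η) Λ F ∂μ = ∫ σ, F σ ∂μ) ∧
      ∀ F : Config → ℝ, Continuous F →
        Tendsto (fun M => gibbsT J lam V β M F) U (𝓝 (∫ σ, F σ ∂μ)) := by
  let ν : ℕ → ProbabilityMeasure Config := fun M => ⟨tm J lam V β M, inferInstance⟩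
  obtain ⟨μ, -, hμ⟩ := isCompact_univ.ultrafilter_le_nhds (U.map ν) (by simp)
  have hlim : ∀ F : Config → ℝ, Continuous F →
      Tendsto (fun M => gibbsT J lam V β M F) U (𝓝 (∫ σ, F σ ∂(μ : Measure Config))) := by
    intro F hF
    have h1 := (ProbabilityMeasure.tendsto_iff_forall_integral_tendsto.1 hμ)
      (BoundedContinuousFunction.mkOfCompact ⟨F, hF⟩)
    simp only [← integral_tm]
    exact h1
  refine ⟨μ, inferInstance, fun t => ?_, fun Λ B F hF => ?_, hlim⟩
  · have hc : Continuous (fun (σ : Config) (x : Site) => σ (x + t)) :=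
      continuous_pi fun x => continuous_apply _
    refine ext_of_forall_integral_eq_of_IsFiniteMeasure fun f => ?_
    rw [integral_map hc.measurable.aemeasurable f.continuous.aestronglyMeasurable]
    have h1 := hlim _ (f.continuous.comp hc)
    have h2 := hlim _ f.continuous
    simp only [← gibbsT_shift hV J lam β _ f t] at h2
    exact tendsto_nhds_unique h1 h2
  · obtain ⟨M₀, hM⟩ := gibbsT_dlr hV J lam β Λ hF
    have h1 := hlim _ (continuous_of_dep (gibbs_dep hV J lam β Λ hF))
    have h2 := hlim _ (continuous_of_dep hF)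
    refine tendsto_nhds_unique (h1.congr' ?_) h2
    exact hU ((eventually_ge_atTop M₀).mono hM)

/-- If the spin correlations of the periodic measures converge, the limit is a torus state. -/
theorem exists_state (hV : IsPotential V) (J lam β : ℝ)
    (h : ∀ A : Finset Site, ∃ c, Tendsto
      (fun M => gibbsT J lam V β M fun σ => ∏ x ∈ A, sp (σ x)) atTop (𝓝 c)) :
    ∃ μ, IsTorusState J lam V β μ := by
  obtain ⟨μ, h1, h2, h3, h4⟩ := exists_ultra hV J lam β (hyperfilter ℕ) Nat.hyperfilter_le_atTop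
  refine ⟨μ, h1, h2, fun Λ A => h3 Λ A _ (dep_prod A), fun A => ?_⟩
  obtain ⟨c, hc⟩ := h A
  rwa [tendsto_nhds_unique (h4 _ (continuous_of_dep (dep_prod A)))
    (hc.mono_left Nat.hyperfilter_le_atTop)]

theorem state_local {J lam β : ℝ} {μ : Measure Config} (hμ : IsTorusState J lam V β μ)
    {B : Finset Site} {F : Config → ℝ} (hF : DependsOn F (B : Set Site)) :
    Tendsto (fun M => gibbsT J lam V β M F) atTop (𝓝 (∫ σ, F σ ∂μ)) := by
  have := hμ.1
  simp only [← integral_tm]
  refine tendsto_local (fun A => ?_) hF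
  simp only [integral_tm]
  exact hμ.2.2.2 A

theorem state_corr {J lam β : ℝ} {μ : Measure Config} (hμ : IsTorusState J lam V β μ) (a : ℝ)
    (p : Pts) :
    Tendsto (fun M => corr a (gibbsT J lam V β M) p) atTop (𝓝 (corr a (famOf μ a) p)) := by
  have := hμ.1
  have e : ∀ M, gibbsT J lam V β M = fun F => ∫ σ, F σ ∂(tm J lam V β M) := fun M =>
    funext fun F => (integral_tm J lam V β M F).symm
  simp only [e]
  refine tendsto_corr (fun A => ?_) a p
  simp only [integral_tm]
  exact hμ.2.2.2 A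

theorem gibbsT_neg (J lam β : ℝ) (M : ℕ) (F : Config → ℝ) :
    gibbsT J lam V β M (fun σ => -F σ) = -gibbsT J lam V β M F := by
  simp only [← integral_tm, integral_neg]

/-- Functions that are odd under the global spin flip have expectation zero. -/
theorem gibbsT_odd (hV : IsPotential V) (J lam β : ℝ) (M : ℕ) {F : Config → ℝ}
    (hF : ∀ σ, F (fun x => !σ x) = -F σ) : gibbsT J lam V β M F = 0 := by
  have h := gibbsT_not hV J lam β M F
  simp only [hF] at h
  rw [gibbsT_neg] at h
  linarith

theorem corr_odd (hV : IsPotential V) (J lam β : ℝ) (M : ℕ) (a : ℝ) {p : Pts} (hp : Odd p.n) :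
    corr a (gibbsT J lam V β M) p = 0 := by
  refine gibbsT_odd hV J lam β M fun σ => ?_
  simp only [sp_not, neg_mul_neg]
  simp only [mul_neg]
  rw [prod_neg, card_univ, Fintype.card_fin, hp.neg_one_pow]
  ring

end Vale.Agent.P144Z.U1
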