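import Vale.Agent.P144Z.U1.Lim
import Vale.Agent.P144Z.St.Uniq

/-!
The critical nearest-neighbour model on large tori, and the reduction of the plane statement to
estimates on tori.
-/

namespace Vale.Agent.P144Z.U1

open Vale.Agent.P144 Finset Filter Topology MeasureTheory

theorem pot_zero : IsPotential fun _ => (0 : ℝ) where
  empty := rfl
  even := fun _ h => absurd rfl h
  range := ⟨0, fun _ h => absurd rfl h⟩
  translate := fun _ _ => rfl
  rotate := fun _ => rfl
  reflect := fun _ => rfl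

theorem gibbsT_zero (J β : ℝ) (V V' : Finset Site → ℝ) : gibbsT J 0 V β = gibbsT J 0 V' β := by
  funext M F
  simp only [gibbsT, energyT, zero_mul]

/-- At `λ = 0` the periodic measures converge to the unique critical state. -/
theorem zero_tendsto {J : ℝ} (hJ : 0 < J) (V : Finset Site → ℝ) (A : Finset Site) :
    Tendsto (fun M => gibbsT J 0 V (Kc / J) M fun σ => ∏ x ∈ A, sp (σ x)) atTop
      (𝓝 (H436.cl (Kc / J) J A)) := by
  rw [gibbsT_zero J _ V fun _ => 0, tendsto_iff_ultrafilter]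
  intro U hU
  obtain ⟨μ, h1, -, h3, h4⟩ := exists_ultra pot_zero J 0 (Kc / J) U hU
  rw [← St.dlr_cl hJ (fun Λ A => h3 Λ A _ (dep_prod A)) A]
  exact h4 _ (continuous_of_dep (dep_prod A))

theorem zero_state {J : ℝ} (hJ : 0 < J) {V : Finset Site → ℝ} {μ : Measure Config}
    (hμ : IsPlaneState J 0 V (Kc / J) μ) : IsTorusState J 0 (fun _ => 0) (Kc / J) μ := by
  obtain ⟨ν, hν⟩ := exists_state pot_zero J 0 (Kc / J) fun A => ⟨_, zero_tendsto hJ _ A⟩
  have := hν.1
  rwa [St.plane_eq_dlr hJ hμ hν.2.2.1]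

/-- The correlations of any critical plane state are limits of those on tori. -/
theorem zero_corr {J : ℝ} (hJ : 0 < J) {E₀ : Fam} (hE : PlaneFam J 0 (fun _ => 0) (Kc / J) E₀)
    {a : ℝ} (ha : 0 < a) (p : Pts) :
    Tendsto (fun M => corr a (gibbsT J 0 (fun _ => 0) (Kc / J) M) p) atTop
      (𝓝 (corr a (E₀ a) p)) := by
  obtain ⟨μ, h1, h2⟩ := hE
  have e : E₀ a = famOf (μ a) a := funext fun F => h2 a F
  rw [e]
  exact state_corr (zero_state hJ (h1 a ha)) a p

/-- The plane identities follow from convergence of the spin correlations and estimates on large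
tori. -/
theorem plane_of_torus {J lam β Zσ Zε : ℝ} {V : Finset Site → ℝ} (hJ : 0 < J)
    (hV : IsPotential V)
    (h1 : ∀ A : Finset Site, ∃ c, Tendsto
      (fun M => gibbsT J lam V β M fun σ => ∏ x ∈ A, sp (σ x)) atTop (𝓝 c))
    (h2 : ∀ p, Good Set.univ p → Even p.n → ∀ ε > 0, ∀ᶠ a in 𝓝[>] (0 : ℝ), ∃ᶠ M in atTop,
      |corr a (gibbsT J lam V β M) p -
        Zσ ^ p.n * Zε ^ p.m * corr a (gibbsT J 0 (fun _ => 0) (Kc / J) M) p| ≤ ε) :
    ∃ μ, IsTorusState J lam V β μ ∧
      ∀ E₀, PlaneFam J 0 (fun _ => 0) (Kc / J) E₀ →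
        (∀ p, Good Set.univ p → Tendsto
          (fun a => corr a (famOf μ a) p - Zσ ^ p.n * Zε ^ p.m * corr a (E₀ a) p)
          (𝓝[>] 0) (𝓝 0)) ∧
        Identity Set.univ E₀ (famOf μ) Zσ Zε := by
  obtain ⟨μ, hμ⟩ := exists_state hV J lam β h1
  refine ⟨μ, hμ, fun E₀ hE => ?_⟩
  have key : ∀ p, Good Set.univ p → Tendsto
      (fun a => corr a (famOf μ a) p - Zσ ^ p.n * Zε ^ p.m * corr a (E₀ a) p)
      (𝓝[>] 0) (𝓝 0) := by
    intro p hp
    have h3 : ∀ ε > 0, ∀ᶠ a in 𝓝[>] (0 : ℝ), ∃ᶠ M in atTop,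
        |corr a (gibbsT J lam V β M) p -
          Zσ ^ p.n * Zε ^ p.m * corr a (gibbsT J 0 (fun _ => 0) (Kc / J) M) p| ≤ ε := by
      rcases Nat.even_or_odd p.n with h | h
      · exact h2 p hp h
      · intro ε hε
        refine Eventually.of_forall fun a => Frequently.of_forall fun M => ?_
        rw [corr_odd hV J lam β M a h, corr_odd pot_zero J 0 _ M a h]
        simpa using hε.le
    rw [Metric.tendsto_nhds]
    intro ε hε
    filter_upwards [h3 _ (half_pos hε), self_mem_nhdsWithin] with a ha ha0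
    have h4 := (((state_corr hμ a p).sub
      ((zero_corr hJ hE ha0 p).const_mul (Zσ ^ p.n * Zε ^ p.m)))).abs
    have h5 := isClosed_Iic.mem_of_frequently_of_tendsto ha h4
    rw [Real.dist_eq, sub_zero]
    exact lt_of_le_of_lt h5 (half_lt_self hε)
  refine ⟨key, fun p hp c hc => ?_⟩
  have := (key p hp).add (hc.const_mul (Zσ ^ p.n * Zε ^ p.m))
  simpa [Lim] using this

end Vale.Agent.P144Z.U1
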